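import Vale.Agent.P193.MathlibUsed

namespace Vale.Agent.P193.H366

/-- The `k`-algebra `A` (associative, with unit, not necessarily commutative) is finitely
presented: it is the quotient of a free algebra on a finite set of generators by the two-sided
ideal generated by a finite set of relators. -/
def FinitelyPresentedAlgebra (k A : Type) [CommRing k] [Ring A] [Algebra k A] : Prop :=
  ∃ (ι : Type) (_ : Finite ι) (π : FreeAlgebra k ι →ₐ[k] A) (s : Set (FreeAlgebra k ι)),
    Function.Surjective π ∧ s.Finite ∧ ∀ x, π x = 0 ↔ x ∈ TwoSidedIdeal.span s

end Vale.Agent.P193.H366
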