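import Vale.Agent.P193.Bdl.B3
import Vale.Agent.P193.H366.Defs

/-!
The group algebra inside a finitely presented purely infinite simple algebra.
-/

namespace Vale.Agent.P193.H366

open Vale.Agent.P193.BH TensorProduct

/-- the group algebra embeds in the machine ring -/
theorem mAlg_groupAlgebra {T Q : Type} {n : ℕ} {G : Type*} [Group G] {M : Machine T Q n}
    {f : Fin n → G} {tgt : ℕ → Option (List (Letter T Q n))}
    (hf : Subgroup.closure (Set.range f) = ⊤) (h : RunProp M f tgt) :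
    ∃ φ : MonoidAlgebra (ZMod 2) G →ₐ[ZMod 2] MAlg M, Function.Injective φ := by
  classical
  obtain ⟨L, hL⟩ := exists_isOp M f tgt
  have hfull := opEnd_full hL h
  let Φ := MAlg.lift M (opEnd hL) hfull
  let e : NF M f := ⟨[], trivial⟩
  obtain ⟨ψ, hψ⟩ := exists_unitsHom hf h
  have key : ∀ g : G, ∃ w : NF M f, Φ (ψ g : MAlg M) (vec (some e)) = vec (some w) ∧
      ev f (grun w.1) = g := by
    intro g
    obtain ⟨c, hc, hψc⟩ := hψ g
    rw [hψc, MAlg.lift_pr, pr_opEnd_vec]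
    obtain ⟨c', -, hev, hc'⟩ := Lw_group hL c [] trivial
    have h4 : (Low hL (c.map .g) e).map Subtype.val = some (c'.map .g ++ grest []) := by
      rw [Low_map]
      exact hc'
    cases hlow : Low hL (c.map .g) e with
    | none => rw [hlow] at h4; simp at h4
    | some w =>
      rw [hlow] at h4
      have h5 : w.1 = c'.map .g ++ grest [] := by simpa using h4
      refine ⟨w, rfl, ?_⟩
      rw [h5, Op.grun_append, Op.grun_of_grest, List.append_nil, hev, hc]
      simp [ev, grun]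
  choose nf hnf1 hnf2 using key
  have hinj : Function.Injective nf := fun a b hab => by
    rw [← hnf2 a, ← hnf2 b, hab]
  let φ : MonoidAlgebra (ZMod 2) G →ₐ[ZMod 2] MAlg M :=
    MonoidAlgebra.lift (ZMod 2) (MAlg M) G ((Units.coeHom (MAlg M)).comp ψ)
  have hφ : ∀ x : MonoidAlgebra (ZMod 2) G,
      Φ (φ x) (vec (some e)) = Finsupp.mapDomain nf x.coeff := by
    intro x
    induction x using MonoidAlgebra.induction_linear with
    | zero => simp
    | add x y hx hy =>
      rw [map_add, map_add, LinearMap.add_apply, hx, hy, MonoidAlgebra.coeff_add,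
        Finsupp.mapDomain_add]
    | single g a =>
      rw [MonoidAlgebra.lift_single, map_smul, LinearMap.smul_apply]
      have h1 : Φ (((Units.coeHom (MAlg M)).comp ψ) g) (vec (some e)) = vec (some (nf g)) :=
        hnf1 g
      rw [h1, MonoidAlgebra.coeff_single, Finsupp.mapDomain_single]
      simp [vec]
  refine ⟨φ, (injective_iff_map_eq_zero φ).2 fun x hx => ?_⟩
  have h1 := hφ x
  rw [hx, map_zero, LinearMap.zero_apply] at h1
  have h2 : x.coeff = 0 := Finsupp.mapDomain_injective hinj (by rw [← h1, Finsupp.mapDomain_zero])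
  exact MonoidAlgebra.ext (by rw [h2]; simp)

theorem isSimpleRing_of_PI (A : Type) [Ring A] [Nontrivial A] (h : PI A) : IsSimpleRing A := by
  refine ⟨⟨fun I => ?_⟩⟩
  by_cases hI : I = ⊥
  · exact Or.inl hI
  · right
    have h1 : ∃ a ∈ I, a ≠ 0 := by
      by_contra hcon
      push Not at hcon
      apply hI
      rw [eq_bot_iff]
      intro a ha
      rw [TwoSidedIdeal.mem_bot]
      exact hcon a ha
    obtain ⟨a, ha, ha0⟩ := h1
    obtain ⟨p, q, hpq⟩ := h a ha0
    rw [← TwoSidedIdeal.one_mem_iff, ← hpq]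
    exact I.mul_mem_right _ _ (I.mul_mem_left _ _ ha)

theorem exists_algebra {n : ℕ} {G : Type*} [Group G] (f : Fin n → G)
    (hf : Subgroup.closure (Set.range f) = ⊤)
    (hdec : ComputablePred fun w : List (Fin n × Bool) =>
      FreeGroup.lift f (FreeGroup.mk w) = 1) :
    ∃ (A : Type) (_ : Ring A) (_ : Algebra (ZMod 2) A), FinitelyPresentedAlgebra (ZMod 2) A ∧
      Nontrivial A ∧ (∀ a : A, a ≠ 0 → ∃ p q : A, p * a * q = 1) ∧
      (∀ c : A, (∀ a, c * a = a * c) → c = 0 ∨ c = 1) ∧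
      ∃ φ : MonoidAlgebra (ZMod 2) G →ₐ[ZMod 2] A, Function.Injective φ := by
  obtain ⟨T, Q, _, _, M, tgt, hM⟩ := exists_machine f (by simpa only [ev_eq] using hdec)
  haveI hRn : Nontrivial (MAlg M) := (mAlg_faithful hf hM).1
  have hRfp : FPAlg (MAlg M) := fpAlg_mAlg M
  have hS := sep_mAlg hM
  obtain ⟨φ, hφ⟩ := mAlg_groupAlgebra hf hM
  obtain ⟨A, _, _, hAn, hAfp, ⟨CA, hCA⟩, ⟨IA⟩⟩ := houghtonAlg
  obtain ⟨L, _, _, hLn, hLfp, ⟨CL, hCL⟩, ⟨l, hl⟩⟩ := leavitt
  obtain ⟨C, hC⟩ := hCA.tensor hCL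
  haveI : Nontrivial (A ⊗[ZMod 2] L) := nontrivial_tensor
  haveI : Nontrivial (MAlg M ⊗[ZMod 2] (A ⊗[ZMod 2] L)) := nontrivial_tensor
  have hpi : PI (MAlg M ⊗[ZMod 2] (A ⊗[ZMod 2] L)) := hS.pi_tensor hC.pi
  have hce : CenterTriv (MAlg M ⊗[ZMod 2] (A ⊗[ZMod 2] L)) := hS.center_tensor hC.center
  have hfp : FPAlg (MAlg M ⊗[ZMod 2] (A ⊗[ZMod 2] L)) := hRfp.tensor (hAfp.tensor hLfp)
  refine ⟨MAlg M ⊗[ZMod 2] (A ⊗[ZMod 2] L), inferInstance, inferInstance, hfp, inferInstance,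
    hpi, hce, (Algebra.TensorProduct.includeLeft :
      MAlg M →ₐ[ZMod 2] MAlg M ⊗[ZMod 2] (A ⊗[ZMod 2] L)).comp φ, ?_⟩
  exact (includeLeft_inj (A := MAlg M) (B := A ⊗[ZMod 2] L)).comp hφ

end Vale.Agent.P193.H366
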