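import Vale.Agent.P193.H366.Defs

/-!
Kuznetsov's algorithm for finitely presented simple algebras over the field with two elements.
-/

namespace Vale.Agent.P193.H366

open List

/-! ### search -/

theorem computablePred_of_stages {α : Type*} [Primcodable α] {p : α → Prop}
    {S₁ S₂ : α × ℕ → Prop} (h₁ : PrimrecPred S₁) (h₂ : PrimrecPred S₂)
    (hp : ∀ a, p a ↔ ∃ s, S₁ (a, s)) (hn : ∀ a, ¬ p a ↔ ∃ s, S₂ (a, s)) : ComputablePred p := by
  classical
  have hex : ∀ a, ∃ s, S₁ (a, s) ∨ S₂ (a, s) := by
    intro a
    by_cases h : p a
    · obtain ⟨s, hs⟩ := (hp a).1 h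
      exact ⟨s, Or.inl hs⟩
    · obtain ⟨s, hs⟩ := (hn a).1 h
      exact ⟨s, Or.inr hs⟩
  have hfind : Computable fun a => Nat.find (hex a) :=
    Computable.find (P := fun a s => S₁ (a, s) ∨ S₂ (a, s))
      (PrimrecPred.or h₁ h₂).computablePred hex
  rw [ComputablePred.computable_iff]
  refine ⟨fun a => decide (S₁ (a, Nat.find (hex a))), ?_, ?_⟩
  · have h1 : Computable fun q => decide (S₁ q) := (PrimrecPred.decide h₁).to_comp
    exact h1.comp (Computable.pair Computable.id hfind)
  · funext a
    rw [decide_eq_true_eq]
    refine propext ⟨fun h => ?_, fun h => (hp a).2 ⟨_, h⟩⟩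
    rcases Nat.find_spec (hex a) with h1 | h1
    · exact h1
    · exact absurd h ((hn a).2 ⟨_, h1⟩)

/-! ### polynomials as lists of words -/

section pol

variable {X : Type*} {A : Type*} [Ring A]

/-- value of a sum of words -/
def pol (a : X → A) (l : List (List X)) : A := (l.map fun w => (w.map a).prod).sum

@[simp] theorem pol_nil (a : X → A) : pol a [] = 0 := rfl

@[simp] theorem pol_cons (a : X → A) (w : List X) (l : List (List X)) :
    pol a (w :: l) = (w.map a).prod + pol a l := by
  simp [pol]

@[simp] theorem pol_append (a : X → A) (l l' : List (List X)) :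
    pol a (l ++ l') = pol a l + pol a l' := by
  simp [pol]

theorem pol_map_append (a : X → A) (v : List X) (q : List (List X)) :
    pol a (q.map (v ++ ·)) = (v.map a).prod * pol a q := by
  induction q with
  | nil => simp
  | cons w q ih => simp only [List.map_cons, pol_cons, ih, List.map_append, List.prod_append, mul_add]

/-- product -/
def mulP (p q : List (List X)) : List (List X) := p.flatMap fun v => q.map (v ++ ·)

theorem pol_mulP (a : X → A) (p q : List (List X)) : pol a (mulP p q) = pol a p * pol a q := by
  unfold mulP
  induction p with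
  | nil => simp
  | cons v p ih => rw [List.flatMap_cons, pol_append, ih, pol_map_append, pol_cons, add_mul]

/-- substitution of polynomials for the letters of a word -/
def subW {Y : Type*} (u : Y → List (List X)) (w : List Y) : List (List X) :=
  w.foldr (fun y acc => mulP (u y) acc) [[]]

theorem pol_subW {Y : Type*} (u : Y → List (List X)) (a : X → A) (w : List Y) :
    pol a (subW u w) = (w.map fun y => pol a (u y)).prod := by
  induction w with
  | nil => simp [subW]
  | cons y w ih =>
    have h : subW u (y :: w) = mulP (u y) (subW u w) := rfl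
    rw [h, pol_mulP, ih]
    simp

/-- substitution of polynomials for the letters of a polynomial -/
def subP {Y : Type*} (u : Y → List (List X)) (l : List (List Y)) : List (List X) :=
  l.flatMap (subW u)

theorem pol_subP {Y : Type*} (u : Y → List (List X)) (a : X → A) (l : List (List Y)) :
    pol a (subP u l) = pol (fun y => pol a (u y)) l := by
  unfold subP
  induction l with
  | nil => simp
  | cons w l ih => rw [List.flatMap_cons, pol_append, ih, pol_subW, pol_cons]

theorem map_pol {B : Type*} [Ring B] (φ : A →+* B) (a : X → A) (l : List (List X)) :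
    φ (pol a l) = pol (fun x => φ (a x)) l := by
  induction l with
  | nil => simp
  | cons w l ih =>
    rw [pol_cons, pol_cons, map_add, ih, map_list_prod, List.map_map]
    rfl

end pol

/-! ### the free algebra -/

section free

variable {X : Type}

theorem exists_pol (x : FreeAlgebra (ZMod 2) X) :
    ∃ l : List (List X), pol (FreeAlgebra.ι (ZMod 2)) l = x := by
  induction x using FreeAlgebra.induction with
  | grade0 r =>
    have hr : r = 0 ∨ r = 1 := by
      revert r
      decide
    rcases hr with rfl | rfl
    · exact ⟨[], by simp⟩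
    · exact ⟨[[]], by simp⟩
  | grade1 a => exact ⟨[[a]], by simp⟩
  | mul a b ha hb =>
    obtain ⟨l, rfl⟩ := ha
    obtain ⟨l', rfl⟩ := hb
    exact ⟨mulP l l', pol_mulP _ _ _⟩
  | add a b ha hb =>
    obtain ⟨l, rfl⟩ := ha
    obtain ⟨l', rfl⟩ := hb
    exact ⟨l ++ l', pol_append _ _ _⟩

/-- every word occurs an even number of times -/
def EvenL [DecidableEq X] (l : List (List X)) : Prop :=
  ∀ w ∈ l, (l.filter fun u => decide (u = w)).length % 2 = 0

theorem coeff_pol [DecidableEq X] (l : List (List X)) (w : List X) :
    (FreeAlgebra.equivMonoidAlgebraFreeMonoid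
      (pol (FreeAlgebra.ι (ZMod 2)) l)).coeff (FreeMonoid.ofList w) =
      (((l.filter fun u => decide (u = w)).length : ℕ) : ZMod 2) := by
  have hw : ∀ v : List X, FreeAlgebra.equivMonoidAlgebraFreeMonoid
      ((v.map (FreeAlgebra.ι (ZMod 2))).prod) =
        MonoidAlgebra.single (FreeMonoid.ofList v) (1 : ZMod 2) := by
    intro v
    induction v with
    | nil => simp [MonoidAlgebra.one_def]
    | cons x v ih =>
      rw [List.map_cons, List.prod_cons, map_mul, ih]
      have h1 : FreeAlgebra.equivMonoidAlgebraFreeMonoid (FreeAlgebra.ι (ZMod 2) x) =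
          MonoidAlgebra.single (FreeMonoid.of x) (1 : ZMod 2) := by
        simp [FreeAlgebra.equivMonoidAlgebraFreeMonoid]
      rw [h1, MonoidAlgebra.single_mul_single, mul_one, FreeMonoid.ofList_cons]
  induction l with
  | nil => simp
  | cons v l ih =>
    rw [pol_cons, map_add, MonoidAlgebra.coeff_add, Finsupp.add_apply, ih, hw,
      MonoidAlgebra.coeff_single, List.filter_cons]
    by_cases h : v = w
    · subst h
      rw [Finsupp.single_eq_same]
      simp [add_comm]
    · have h2 : FreeMonoid.ofList v ≠ FreeMonoid.ofList w := fun h' =>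
        h (FreeMonoid.ofList.injective h')
      rw [Finsupp.single_eq_of_ne (Ne.symm h2)]
      simp [h]

theorem pol_eq_zero_iff [DecidableEq X] (l : List (List X)) :
    pol (FreeAlgebra.ι (ZMod 2)) l = 0 ↔ EvenL l := by
  constructor
  · intro h w _
    have h1 := coeff_pol l w
    rw [h, map_zero] at h1
    have h2 : (((l.filter fun u => decide (u = w)).length : ℕ) : ZMod 2) = 0 := by
      rw [← h1]; simp
    have h3 := (ZMod.natCast_eq_zero_iff _ _).1 h2
    exact Nat.mod_eq_zero_of_dvd h3
  · intro h
    apply FreeAlgebra.equivMonoidAlgebraFreeMonoid.injective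
    rw [map_zero]
    refine MonoidAlgebra.ext ?_
    ext w
    have h1 := coeff_pol l (FreeMonoid.toList w)
    rw [FreeMonoid.ofList_toList] at h1
    rw [h1]
    by_cases hw : FreeMonoid.toList w ∈ l
    · have h2 := h _ hw
      simp only [MonoidAlgebra.coeff_zero, Finsupp.coe_zero, Pi.zero_apply]
      exact (ZMod.natCast_eq_zero_iff _ _).2 (Nat.dvd_of_mod_eq_zero h2)
    · have h2 : (l.filter fun u => decide (u = FreeMonoid.toList w)) = [] := by
        rw [List.filter_eq_nil_iff]
        intro u hu hu'
        simp only [decide_eq_true_eq] at hu'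
        exact hw (hu' ▸ hu)
      rw [h2]
      simp

/-- certificates: words, relators, words -/
abbrev Cert (X : Type) : Type := List (List X × List (List X) × List X)

/-- a word times a relator times a word -/
def piece (e : List X × List (List X) × List X) : List (List X) :=
  e.2.1.map fun w => e.1 ++ (w ++ e.2.2)

theorem pol_piece {A : Type*} [Ring A] (a : X → A) (e : List X × List (List X) × List X) :
    pol a (piece e) = (e.1.map a).prod * (pol a e.2.1 * (e.2.2.map a).prod) := by
  obtain ⟨x, r, y⟩ := e
  unfold piece
  simp only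
  induction r with
  | nil => simp
  | cons w r ih =>
    simp only [List.map_cons, pol_cons, ih, List.map_append, List.prod_append, mul_add, add_mul]

/-- `C` certifies that `p` lies in the ideal generated by `rs` -/
def Chk [DecidableEq X] (rs : List (List (List X))) (p : List (List X)) (C : Cert X) : Prop :=
  (∀ e ∈ C, e.2.1 ∈ rs) ∧ EvenL (p ++ C.flatMap piece)

theorem neg_eq (x : FreeAlgebra (ZMod 2) X) : -x = x := by
  have h : ((-1 : ZMod 2)) = 1 := by decide
  calc -x = (-1 : ZMod 2) • x := by rw [neg_smul, one_smul]
    _ = x := by rw [h, one_smul]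

/-- the certified elements form a two-sided ideal -/
def certIdeal (rs : List (List (List X))) : TwoSidedIdeal (FreeAlgebra (ZMod 2) X) :=
  TwoSidedIdeal.mk' {x | ∃ C : Cert X, (∀ e ∈ C, e.2.1 ∈ rs) ∧
      pol (FreeAlgebra.ι (ZMod 2)) (C.flatMap piece) = x}
    ⟨[], by simp, by simp⟩
    (by
      rintro x y ⟨C, hC, rfl⟩ ⟨C', hC', rfl⟩
      refine ⟨C ++ C', ?_, by simp⟩
      intro e he
      rcases List.mem_append.1 he with h | h
      · exact hC e h
      · exact hC' e h)
    (by
      rintro x ⟨C, hC, rfl⟩
      exact ⟨C, hC, (neg_eq _).symm⟩)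
    (by
      rintro x y ⟨C, hC, rfl⟩
      obtain ⟨l, rfl⟩ := exists_pol x
      induction l with
      | nil => exact ⟨[], by simp, by simp⟩
      | cons w l ih =>
        obtain ⟨C', hC', h'⟩ := ih
        refine ⟨(C.map fun e => (w ++ e.1, e.2)) ++ C', ?_, ?_⟩
        · intro e he
          rcases List.mem_append.1 he with h | h
          · obtain ⟨e', he', rfl⟩ := List.mem_map.1 h
            exact hC e' he'
          · exact hC' e h
        · rw [List.flatMap_append, pol_append, h', pol_cons, add_mul]
          congr 1
          clear hC hC' h'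
          induction C with
          | nil => simp
          | cons e C ih =>
            rw [List.map_cons, List.flatMap_cons, pol_append, ih, List.flatMap_cons, pol_append,
              mul_add, pol_piece, pol_piece]
            simp only [List.map_append, List.prod_append, mul_assoc])
    (by
      rintro x y ⟨C, hC, rfl⟩
      obtain ⟨l, rfl⟩ := exists_pol y
      induction l with
      | nil => exact ⟨[], by simp, by simp⟩
      | cons w l ih =>
        obtain ⟨C', hC', h'⟩ := ih
        refine ⟨(C.map fun e => (e.1, e.2.1, e.2.2 ++ w)) ++ C', ?_, ?_⟩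
        · intro e he
          rcases List.mem_append.1 he with h | h
          · obtain ⟨e', he', rfl⟩ := List.mem_map.1 h
            exact hC e' he'
          · exact hC' e h
        · rw [List.flatMap_append, pol_append, h', pol_cons, mul_add]
          congr 1
          clear hC hC' h'
          induction C with
          | nil => simp
          | cons e C ih =>
            rw [List.map_cons, List.flatMap_cons, pol_append, ih, List.flatMap_cons, pol_append,
              add_mul, pol_piece, pol_piece]
            simp only [List.map_append, List.prod_append, mul_assoc])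

theorem mem_certIdeal (rs : List (List (List X))) (x : FreeAlgebra (ZMod 2) X) :
    x ∈ certIdeal rs ↔ ∃ C : Cert X, (∀ e ∈ C, e.2.1 ∈ rs) ∧
      pol (FreeAlgebra.ι (ZMod 2)) (C.flatMap piece) = x := by
  unfold certIdeal
  rw [TwoSidedIdeal.mem_mk']
  rfl

theorem mem_span_iff [DecidableEq X] (rs : List (List (List X))) (p : List (List X)) :
    pol (FreeAlgebra.ι (ZMod 2)) p ∈ TwoSidedIdeal.span
      {y : FreeAlgebra (ZMod 2) X | ∃ r ∈ rs, pol (FreeAlgebra.ι (ZMod 2)) r = y} ↔
      ∃ C : Cert X, Chk rs p C := by
  set s := {y : FreeAlgebra (ZMod 2) X | ∃ r ∈ rs, pol (FreeAlgebra.ι (ZMod 2)) r = y} with hs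
  constructor
  · intro h
    have h1 : TwoSidedIdeal.span s ≤ certIdeal rs := by
      rw [TwoSidedIdeal.span_le]
      rintro y ⟨r, hr, rfl⟩
      rw [SetLike.mem_coe, mem_certIdeal]
      refine ⟨[([], r, [])], ?_, ?_⟩
      · intro e he
        rw [List.mem_singleton] at he
        rw [he]
        exact hr
      · rw [List.flatMap_singleton, pol_piece]
        simp
    obtain ⟨C, hC, hCp⟩ := (mem_certIdeal rs _).1 (h1 h)
    refine ⟨C, hC, ?_⟩
    rw [← pol_eq_zero_iff, pol_append, hCp]
    nth_rewrite 2 [← neg_eq (pol (FreeAlgebra.ι (ZMod 2)) p)]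
    exact add_neg_cancel _
  · rintro ⟨C, hC, hE⟩
    rw [← pol_eq_zero_iff, pol_append] at hE
    rw [eq_neg_of_add_eq_zero_left hE, neg_eq]
    clear hE
    induction C with
    | nil => simp
    | cons e C ih =>
      rw [List.flatMap_cons, pol_append, pol_piece]
      refine TwoSidedIdeal.add_mem _ ?_ (ih fun e' he' => hC e' (List.mem_cons_of_mem _ he'))
      refine TwoSidedIdeal.mul_mem_left _ _ _ (TwoSidedIdeal.mul_mem_right _ _ _ ?_)
      exact TwoSidedIdeal.subset_span ⟨e.2.1, hC e List.mem_cons_self, rfl⟩

end free

end Vale.Agent.P193.H366
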