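import Vale.Agent.P193.H366.Kuz

/-!
Computability of the certificate check and decidability of the word problem for finitely presented
simple algebras over the field with two elements.
-/

namespace Vale.Agent.P193.H366

open List

/-! ### primitive recursion -/

section prim

variable {X Y : Type} [Primcodable X] [Primcodable Y]

theorem primrec_mulP : Primrec₂ (mulP : List (List X) → List (List X) → List (List X)) := by
  unfold mulP
  refine Primrec.list_flatMap Primrec.fst ?_
  apply Primrec₂.mk
  refine Primrec.list_map (Primrec.snd.comp Primrec.fst) ?_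
  apply Primrec₂.mk
  exact Primrec.list_append.comp (Primrec.snd.comp Primrec.fst) Primrec.snd

theorem primrec_subP [Finite Y] (u : Y → List (List X)) : Primrec (subP u) := by
  unfold subP
  refine Primrec.list_flatMap Primrec.id ?_
  apply Primrec₂.mk
  unfold subW
  refine Primrec.list_foldr (f := fun q : List (List Y) × List Y => q.2)
    (g := fun _ : List (List Y) × List Y => ([[]] : List (List X)))
    (h := fun (_ : List (List Y) × List Y) (p : Y × List (List X)) => mulP (u p.1) p.2)
    Primrec.snd (Primrec.const [[]]) ?_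
  apply Primrec₂.mk
  exact primrec_mulP.comp ((Primrec.dom_finite u).comp (Primrec.fst.comp Primrec.snd))
    (Primrec.snd.comp Primrec.snd)

theorem primrec_flatMap_piece : Primrec fun C : Cert X => C.flatMap piece := by
  refine Primrec.list_flatMap Primrec.id ?_
  apply Primrec₂.mk
  unfold piece
  refine Primrec.list_map (Primrec.fst.comp (Primrec.snd.comp Primrec.snd)) ?_
  apply Primrec₂.mk
  exact Primrec.list_append.comp (Primrec.fst.comp (Primrec.snd.comp Primrec.fst))
    (Primrec.list_append.comp Primrec.snd
      (Primrec.snd.comp (Primrec.snd.comp (Primrec.snd.comp Primrec.fst))))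

theorem primrec_evenL [DecidableEq X] : PrimrecPred (EvenL : List (List X) → Prop) := by
  have h1 : Primrec₂ fun (l : List (List X)) (w : List X) => l.filter fun u => decide (u = w) :=
    PrimrecRel.listFilter (R := fun (u w : List X) => u = w) Primrec.eq
  have h2 : PrimrecRel fun (w : List X) (l : List (List X)) =>
      (l.filter fun u => decide (u = w)).length % 2 = 0 := by
    refine PrimrecRel.comp Primrec.eq ?_ (Primrec.const 0)
    exact Primrec.nat_mod.comp (Primrec.list_length.comp (h1.comp Primrec.snd Primrec.fst))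
      (Primrec.const 2)
  exact (PrimrecRel.forall_mem_list h2).comp Primrec.id Primrec.id

theorem primrec_chk [DecidableEq X] :
    PrimrecPred fun q : (List (List (List X)) × List (List X)) × Cert X => Chk q.1.1 q.1.2 q.2 := by
  unfold Chk
  refine PrimrecPred.and ?_ ?_
  · have h1 : PrimrecRel fun (R : List (List (List X))) (x : List (List X)) => ∃ r ∈ R, r = x :=
      PrimrecRel.exists_mem_list (R := fun r x : List (List X) => r = x) Primrec.eq
    have h2 : PrimrecRel fun (e : List X × List (List X) × List X) (R : List (List (List X))) =>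
        ∃ r ∈ R, r = e.2.1 :=
      h1.comp Primrec.snd (Primrec.fst.comp (Primrec.snd.comp Primrec.fst))
    have h3 := PrimrecRel.forall_mem_list h2
    refine PrimrecPred.of_eq (h3.comp
      (Primrec.snd (α := List (List (List X)) × List (List X)) (β := Cert X))
      (Primrec.fst.comp Primrec.fst)) ?_
    intro q
    simp only [↓existsAndEq, and_true]
  · exact primrec_evenL.comp (Primrec.list_append.comp (Primrec.snd.comp Primrec.fst)
      (primrec_flatMap_piece.comp Primrec.snd))

/-- stage `s` contains a certificate -/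
def Stage [DecidableEq X] (q : (List (List (List X)) × List (List X)) × ℕ) : Prop :=
  ∃ C : Cert X, Encodable.decode q.2 = some C ∧ Chk q.1.1 q.1.2 C

theorem stage_iff [DecidableEq X] (a : List (List (List X)) × List (List X)) :
    (∃ C : Cert X, Chk a.1 a.2 C) ↔ ∃ s, Stage (a, s) := by
  constructor
  · rintro ⟨C, hC⟩
    exact ⟨Encodable.encode C, C, Encodable.encodek C, hC⟩
  · rintro ⟨s, C, -, hC⟩
    exact ⟨C, hC⟩

theorem primrec_stage [DecidableEq X] : PrimrecPred (Stage (X := X)) := by
  classical
  have h1 : Primrec fun q : (List (List (List X)) × List (List X)) × ℕ =>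
      (Option.casesOn (Encodable.decode q.2 : Option (Cert X)) false
        (fun C => decide (Chk q.1.1 q.1.2 C)) : Bool) := by
    refine Primrec.option_casesOn (Primrec.decode.comp Primrec.snd) (Primrec.const false) ?_
    apply Primrec₂.mk
    exact (PrimrecPred.decide primrec_chk).comp (Primrec.pair (Primrec.fst.comp Primrec.fst)
      Primrec.snd)
  refine PrimrecPred.of_eq (PrimrecRel.comp Primrec.eq h1 (Primrec.const true)) ?_
  intro q
  unfold Stage
  cases h : (Encodable.decode q.2 : Option (Cert X)) with
  | none => simp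
  | some C => simp

end prim

/-! ### simple algebras -/

theorem one_mem_of_simple {F A : Type*} [Ring F] [Ring A] [IsSimpleRing A] (π : F →+* A)
    (hπ : Function.Surjective π) (J : TwoSidedIdeal F) (hker : ∀ x, π x = 0 → x ∈ J) (x : F)
    (hx : x ∈ J) (hx0 : π x ≠ 0) : (1 : F) ∈ J := by
  by_contra h1
  let q : F →+* J.ringCon.Quotient := J.ringCon.mk'
  have hq : ∀ y, q y = 0 ↔ y ∈ J := by
    intro y
    rw [TwoSidedIdeal.mem_iff]
    exact RingCon.eq J.ringCon
  have : Nontrivial J.ringCon.Quotient := ⟨⟨1, 0, fun h => h1 ((hq 1).1 (by rw [map_one, h]))⟩⟩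
  let g : A →+* J.ringCon.Quotient := π.liftOfRightInverse (Function.surjInv hπ)
    (Function.rightInverse_surjInv hπ) ⟨q, fun y hy => by
      rw [RingHom.mem_ker] at hy ⊢
      exact (hq y).2 (hker y hy)⟩
  have hg : ∀ y, g (π y) = q y := fun y =>
    π.liftOfRightInverse_comp_apply (Function.surjInv hπ) (Function.rightInverse_surjInv hπ) _ y
  apply hx0
  apply g.injective
  rw [hg, map_zero]
  exact (hq x).2 hx

/-- Kuznetsov's theorem for algebras: the word problem of a finitely presented simple algebra over
the field with two elements is decidable, for all finite families of elements. -/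
theorem algebra_decidable {A : Type} [Ring A] [Algebra (ZMod 2) A] [IsSimpleRing A]
    (hfp : FinitelyPresentedAlgebra (ZMod 2) A) {Y : Type} [Finite Y] [Primcodable Y]
    (a : Y → A) : ComputablePred fun l : List (List Y) => pol a l = 0 := by
  classical
  obtain ⟨ι, hι, π, s, hπ, hs, hker⟩ := hfp
  obtain ⟨n, ⟨e⟩⟩ := Finite.exists_equiv_fin ι
  let _ : Primcodable ι := Primcodable.ofEquiv (Fin n) e
  -- the relators
  obtain ⟨rs, hrs⟩ : ∃ rs : List (List (List ι)),
      s = {y : FreeAlgebra (ZMod 2) ι | ∃ r ∈ rs, pol (FreeAlgebra.ι (ZMod 2)) r = y} := by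
    choose p hp using fun x : FreeAlgebra (ZMod 2) ι => exists_pol x
    refine ⟨hs.toFinset.toList.map p, ?_⟩
    ext y
    simp only [Set.mem_ofPred_eq, List.mem_map, Finset.mem_toList, Set.Finite.mem_toFinset]
    constructor
    · intro hy
      exact ⟨p y, ⟨y, hy, rfl⟩, hp y⟩
    · rintro ⟨r, ⟨z, hz, rfl⟩, rfl⟩
      rwa [hp]
  -- the elements
  have hu : ∀ y : Y, ∃ p : List (List ι), π (pol (FreeAlgebra.ι (ZMod 2)) p) = a y := by
    intro y
    obtain ⟨x, hx⟩ := hπ (a y)
    obtain ⟨p, rfl⟩ := exists_pol x
    exact ⟨p, hx⟩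
  choose u hu using hu
  have hsub : ∀ l : List (List Y), π (pol (FreeAlgebra.ι (ZMod 2)) (subP u l)) = pol a l := by
    intro l
    rw [pol_subP]
    have h1 := map_pol (π : FreeAlgebra (ZMod 2) ι →+* A)
      (fun y => pol (FreeAlgebra.ι (ZMod 2)) (u y)) l
    refine h1.trans ?_
    congr 1
    funext y
    exact hu y
  have hz : ∀ l : List (List Y), pol a l = 0 ↔ ∃ C : Cert ι, Chk rs (subP u l) C := by
    intro l
    rw [← hsub, hker, hrs, mem_span_iff]
  have hn : ∀ l : List (List Y), ¬ pol a l = 0 ↔
      ∃ C : Cert ι, Chk (subP u l :: rs) [[]] C := by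
    intro l
    rw [← mem_span_iff]
    have h1 : pol (FreeAlgebra.ι (ZMod 2)) ([[]] : List (List ι)) = 1 := by simp
    rw [h1]
    set J := TwoSidedIdeal.span {y : FreeAlgebra (ZMod 2) ι |
      ∃ r ∈ subP u l :: rs, pol (FreeAlgebra.ι (ZMod 2)) r = y} with hJ
    have hxJ : pol (FreeAlgebra.ι (ZMod 2)) (subP u l) ∈ J :=
      TwoSidedIdeal.subset_span ⟨_, List.mem_cons_self, rfl⟩
    have hsJ : TwoSidedIdeal.span s ≤ J := by
      rw [TwoSidedIdeal.span_le, hrs]
      rintro y ⟨r, hr, rfl⟩
      exact TwoSidedIdeal.subset_span ⟨r, List.mem_cons_of_mem _ hr, rfl⟩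
    constructor
    · intro h
      rw [← hsub] at h
      exact one_mem_of_simple (π : FreeAlgebra (ZMod 2) ι →+* A) hπ J
        (fun x hx => hsJ ((hker x).1 hx)) _ hxJ h
    · intro h hl
      have h2 : J ≤ TwoSidedIdeal.span s := by
        rw [hJ, TwoSidedIdeal.span_le]
        rintro y ⟨r, hr, rfl⟩
        rcases List.mem_cons.1 hr with rfl | hr
        · rw [SetLike.mem_coe, ← hker, hsub, hl]
        · refine TwoSidedIdeal.subset_span ?_
          rw [hrs]
          exact ⟨r, hr, rfl⟩
      have h3 := (hker 1).2 (h2 h)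
      rw [map_one] at h3
      exact one_ne_zero h3
  have hp1 : PrimrecPred fun q : List (List Y) × ℕ => Stage ((rs, subP u q.1), q.2) :=
    primrec_stage.comp (Primrec.pair (Primrec.pair (Primrec.const rs)
      ((primrec_subP u).comp Primrec.fst)) Primrec.snd)
  have hp2 : PrimrecPred fun q : List (List Y) × ℕ =>
      Stage ((subP u q.1 :: rs, [[]]), q.2) :=
    primrec_stage.comp (Primrec.pair (Primrec.pair (Primrec.list_cons.comp
      ((primrec_subP u).comp Primrec.fst) (Primrec.const rs)) (Primrec.const [[]])) Primrec.snd)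
  refine computablePred_of_stages hp1 hp2 ?_ ?_
  · intro l
    rw [hz, stage_iff (rs, subP u l)]
  · intro l
    rw [hn, stage_iff (subP u l :: rs, [[]])]

/-- a finitely generated group of units of a finitely presented simple algebra over the field with
two elements has decidable word problem -/
theorem units_decidable {n : ℕ} {G : Type*} [Group G] (f : Fin n → G) {A : Type} [Ring A]
    [Algebra (ZMod 2) A] [IsSimpleRing A] (hfp : FinitelyPresentedAlgebra (ZMod 2) A)
    (ψ : G →* Aˣ) (hψ : Function.Injective ψ) :
    ComputablePred fun w : List (Fin n × Bool) => FreeGroup.lift f (FreeGroup.mk w) = 1 := by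
  let a : Fin n × Bool → A := fun p => cond p.2 (ψ (f p.1) : A) ((ψ (f p.1))⁻¹ : Aˣ)
  have h1 := algebra_decidable hfp a
  have h2 : Computable fun w : List (Fin n × Bool) => [w, []] :=
    (Primrec.list_cons.comp Primrec.id (Primrec.const [[]])).to_comp
  obtain ⟨g, hg, hgp⟩ := ComputablePred.computable_iff.1 h1
  rw [ComputablePred.computable_iff]
  refine ⟨fun w => g [w, []], hg.comp h2, ?_⟩
  funext w
  have h3 : (pol a [w, []] = 0) = (g [w, []] = true) := congrFun hgp [w, []]
  rw [← h3]
  have h4 : ∀ w : List (Fin n × Bool), (w.map a).prod =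
      ((ψ (FreeGroup.lift f (FreeGroup.mk w)) : Aˣ) : A) := by
    intro w
    induction w with
    | nil => simp
    | cons p w ih =>
      have h0 : (FreeGroup.mk (p :: w) : FreeGroup (Fin n)) =
          FreeGroup.mk [p] * FreeGroup.mk w := by
        rw [FreeGroup.mul_mk]
        rfl
      rw [List.map_cons, List.prod_cons, ih, h0, map_mul, map_mul, Units.val_mul]
      congr 1
      obtain ⟨i, b⟩ := p
      cases b <;> simp [a]
  have h5 : ((1 : A) + 1) = 0 := by
    have h6 : ((1 : ZMod 2) + 1) = 0 := by decide
    rw [← map_one (algebraMap (ZMod 2) A), ← map_add, h6, map_zero]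
  rw [pol_cons, pol_cons, pol_nil, h4]
  simp only [List.map_nil, List.prod_nil, add_zero]
  refine propext ⟨fun h => ?_, fun h => ?_⟩
  · rw [h, map_one, Units.val_one, h5]
  · have h7 : ((ψ (FreeGroup.lift f (FreeGroup.mk w)) : Aˣ) : A) = 1 := by
      have h8 : (1 : A) = -1 := eq_neg_of_add_eq_zero_left h5
      rw [eq_neg_of_add_eq_zero_left h, ← h8]
    have h9 : ψ (FreeGroup.lift f (FreeGroup.mk w)) = 1 := Units.ext h7
    exact hψ (by rw [h9, map_one])

end Vale.Agent.P193.H366
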