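import Vale.Agent.P193.H366.Alg
import Vale.Agent.P193.H366.KuzComp
import Vale.Agent.P193.H870.Main

/-!
Finitely generated groups with decidable word problem and finitely presented simple algebras.
-/

namespace Vale.Agent.P193.H366

universe u

theorem tfae {n : ℕ} {G : Type u} [Group G] (f : Fin n → G)
    (hf : Subgroup.closure (Set.range f) = ⊤) :
    List.TFAE [
      ComputablePred fun w : List (Fin n × Bool) => FreeGroup.lift f (FreeGroup.mk w) = 1,
      ∃ (K : Type) (_ : Group K), IsSimpleGroup K ∧ Group.IsFinitelyPresented K ∧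
        ∃ ψ : G →* K, Function.Injective ψ,
      ∃ (A : Type) (_ : Ring A) (_ : Algebra (ZMod 2) A),
        FinitelyPresentedAlgebra (ZMod 2) A ∧ IsSimpleRing A ∧
        ∃ ψ : G →* Aˣ, Function.Injective ψ,
      ∃ (A : Type) (_ : Ring A) (_ : Algebra (ZMod 2) A),
        FinitelyPresentedAlgebra (ZMod 2) A ∧ IsSimpleRing A ∧
        (∀ a : A, a ≠ 0 → ∃ p q : A, p * a * q = 1) ∧ Subalgebra.center (ZMod 2) A = ⊥ ∧
        ∃ φ : MonoidAlgebra (ZMod 2) G →ₐ[ZMod 2] A, Function.Injective φ] := by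
  tfae_have 1 → 2 := fun h => Vale.Agent.P193.BH.booneHigman f hf h
  tfae_have 2 → 1 := by
    rintro ⟨K, _, hK1, hK2, ψ, hψ⟩
    exact Vale.Agent.P193.H870.converse f K hK1 hK2 ψ hψ
  tfae_have 1 → 4 := by
    intro h
    obtain ⟨A, _, _, hfp, hn, hpi, hce, φ, hφ⟩ := exists_algebra f hf h
    refine ⟨A, inferInstance, inferInstance, hfp, isSimpleRing_of_PI A hpi, hpi, ?_, φ, hφ⟩
    rw [eq_bot_iff]
    intro c hc
    rw [Subalgebra.mem_center_iff] at hc
    rcases hce c fun a => (hc a).symm with rfl | rfl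
    · exact Subalgebra.zero_mem _
    · exact Subalgebra.one_mem _
  tfae_have 4 → 3 := by
    rintro ⟨A, _, _, hfp, hs, -, -, φ, hφ⟩
    refine ⟨A, inferInstance, inferInstance, hfp, hs,
      ((φ : MonoidAlgebra (ZMod 2) G →* A).comp (MonoidAlgebra.of (ZMod 2) G)).toHomUnits, ?_⟩
    intro x y hxy
    have h1 := congrArg (fun u : Aˣ => (u : A)) hxy
    simp only [MonoidHom.coe_toHomUnits] at h1
    exact MonoidAlgebra.of_injective (hφ h1)
  tfae_have 3 → 1 := by
    rintro ⟨A, _, _, hfp, hs, ψ, hψ⟩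
    exact units_decidable f hfp ψ hψ
  tfae_finish

end Vale.Agent.P193.H366
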